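import Vale.Agent.P057DP.Er

/-!
Chains of rectangles in an abstract triangular system.
-/

set_option linter.all false

open Matrix Finset
open Vale.Agent.P267.H775 Vale.Agent.P057G Vale.Agent.P057MA Vale.Agent.P057PC
open Vale.Agent.P057DP
open Vale.Agent.P057T1 (ind ind_pos ind_neg ind_nonneg ind_le abs_ind ind_mono)

namespace Vale.Agent.P057CN

noncomputable section

variable {V ι W : Type} [Fintype ι] [DecidableEq ι] [DecidableEq W] {S : MS V ι}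

theorem er_split (h : Tr S) {q q' : Finset ι} (hq : Cl S q) (hq' : Cl S q') (hs : q ⊆ q')
    {r : Finset ι} (hr : q' = q ∪ r) (hd : Disjoint q r) {f g : (ι → ℤ) → ℝ} (hf : Bd f)
    (hg : Bd g) (dg : Dp q g) :
    Er S q' (fun z => g z * f z) = Er S q fun z => g z * Fr S r f z := by
  subst hr
  rw [h.Er_split hq (sat_of_union h.pd.1 hq.sat hq'.sat hd) hd (hg.mul hf),
    funext (Fr_mul hd f dg)]

theorem dp_and {q : Finset ι} {A B : (ι → ℤ) → Prop} (hA : Dp q A) (hB : Dp q B) :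
    Dp q fun z => A z ∧ B z := hA.map₂ hB And

theorem Bd.comp {α β : Type*} {f : α → ℝ} (hf : Bd f) (g : β → α) : Bd fun z => f (g z) :=
  hf.imp fun _ h _ => h _

/-- the data of a chain -/
structure Ch (S : MS V ι) (Bs : Finset W) (Q : Finset W → Finset ι) (τ : W → ι → ι) : Prop where
  tr : Tr S
  cl : ∀ D, Cl S (Q D)
  ms : S.mass (Q ∅) ≤ 2
  mono : ∀ D, Q ∅ ⊆ Q D
  un : ∀ l ∈ Bs, ∀ D ⊆ Bs, Q (insert l D) = Q D ∪ Q {l}
  it : ∀ l D, l ∉ D → Q D ∩ Q {l} ⊆ Q ∅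
  inv : ∀ l, Function.Involutive (τ l)
  emb : ∀ l ∈ Bs, ∀ D, Emb S S (τ l) (Q (insert l D))
  img : ∀ l ∈ Bs, ∀ D, (Q (insert l D)).image (τ l) = Q (insert l D)

variable {Bs : Finset W} {Q : Finset W → Finset ι} {τ : W → ι → ι}

theorem Ch.er (c : Ch S Bs Q τ) {l : W} (hl : l ∈ Bs) (D : Finset W) (f : (ι → ℤ) → ℝ) :
    Er S (Q (insert l D)) (fun z => f (z ∘ τ l)) = Er S (Q (insert l D)) f := by
  have := (c.emb l hl D).er f
  rwa [c.img l hl D] at this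

theorem Ch.dp (c : Ch S Bs Q τ) {l : W} (hl : l ∈ Bs) (D : Finset W) {β : Type*}
    {f : (ι → ℤ) → β} (hf : Dp (Q (insert l D)) f) : Dp (Q (insert l D)) fun z => f (z ∘ τ l) :=
  hf.comp fun i hi => c.img l hl D ▸ mem_image_of_mem _ hi

theorem Ch.chain (c : Ch S Bs Q τ) {U : (ι → ℤ) → Prop} {R : W → (ι → ℤ) → Prop}
    {I : Finset W → (ι → ℤ) → Prop} {β ε : ℝ} (hβ : 0 ≤ β) (hU : Dp (Q ∅) U)
    (hR : ∀ l ∈ Bs, Dp (Q {l}) (R l)) (h0 : ∀ z, I ∅ z)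
    (hI : ∀ l ∈ Bs, ∀ D ⊆ Bs, l ∉ D → ∀ z, R l z → I D (z ∘ τ l) → I (insert l D) z)
    (hb : ∀ l ∈ Bs, ∀ G : (ι → ℤ) → Prop, Dp (Q ∅) G → (∀ z, G z → U z) →
      ε ≤ Er S (Q ∅) (fun z => ind (G z)) →
      2 * β < Er S (Q {l}) fun z => ind (G z ∧ G (z ∘ τ l) ∧ R l z)) :
    β ^ Bs.card * (Er S (Q ∅) (fun z => ind (U z)) - Bs.card * ε) ≤
      Er S (Q Bs) fun z => ind (U z ∧ I Bs z) := by
  have h := c.tr
  suffices H : ∀ D ⊆ Bs, ∃ G H : (ι → ℤ) → Prop, Dp (Q ∅) G ∧ (∀ z, G z → U z) ∧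
      Er S (Q ∅) (fun z => ind (U z)) - D.card * ε ≤ Er S (Q ∅) (fun z => ind (G z)) ∧
      Dp (Q D) H ∧ (∀ z, H z → I D z) ∧ ∀ φ : (ι → ℤ) → ℝ, Bd φ → (∀ z, 0 ≤ φ z) → Dp (Q ∅) φ →
        β ^ D.card * Er S (Q ∅) (fun z => ind (G z) * φ z) ≤
          Er S (Q D) fun z => ind (H z) * φ z by
    obtain ⟨G, H, -, a2, a3, -, a5, a6⟩ := H Bs Subset.rfl
    refine (mul_le_mul_of_nonneg_left (a3.trans (h.Er_le (bd_ind _) ((bd_ind _).mul (bd_ind _))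
      fun z _ => ?_)) (pow_nonneg hβ _)).trans ((a6 _ (bd_ind U) (fun _ => ind_nonneg _)
        (hU.map ind)).trans (h.Er_le ((bd_ind _).mul (bd_ind _)) (bd_ind _) fun z _ => ?_))
    · rw [← ind_and]; exact ind_mono fun k => ⟨k, a2 z k⟩
    · rw [← ind_and]; exact ind_mono fun k => ⟨k.2, a5 z k.1⟩
  intro D
  induction D using Finset.induction_on with
  | empty =>
    exact fun _ => ⟨U, U, hU, fun _ k => k, by simp, hU, fun z _ => h0 z, fun φ _ _ _ => by simp⟩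
  | insert l D hl ih =>
  intro hD
  have lB := hD (mem_insert_self _ _)
  have DB := (subset_insert _ _).trans hD
  obtain ⟨G, H, a1, a2, a3, a4, a5, a6⟩ := ih DB
  have e1 : Q {l} = Q ∅ ∪ Q {l} \ Q ∅ := (union_sdiff_of_subset (c.mono _)).symm
  have e2 : Q (insert l D) = Q D ∪ Q {l} \ Q ∅ := by
    rw [c.un l lB D DB]
    conv_lhs => rw [e1, ← union_assoc, union_eq_left.2 (c.mono D)]
  have d2 : Disjoint (Q D) (Q {l} \ Q ∅) := disjoint_left.2 fun i a b =>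
    (mem_sdiff.1 b).2 (c.it l D hl (mem_inter.2 ⟨a, (mem_sdiff.1 b).1⟩))
  have s1 : Q D ⊆ Q (insert l D) := e2 ▸ subset_union_left
  have s2 : Q {l} ⊆ Q (insert l D) := c.un l lB D DB ▸ subset_union_right
  have dτ : ∀ {β : Type} {f : (ι → ℤ) → β}, Dp (Q {l}) f → Dp (Q {l}) fun z => f (z ∘ τ l) :=
    fun hf => c.dp lB ∅ hf
  have f1 : Dp (Q {l}) fun z => ind (G (z ∘ τ l) ∧ R l z) :=
    (dp_and (dτ (a1.mono (c.mono _))) (hR l lB)).map ind
  set sh := Fr S (Q {l} \ Q ∅) fun z => ind (G (z ∘ τ l) ∧ R l z) with hsh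
  have f2 : Dp (Q ∅) sh := dp_Fr (e1 ▸ c.cl {l}) (e1 ▸ f1)
  have f3 : Bd sh := h.bd_Fr _ (bd_ind _)
  have sp : ∀ {f g : (ι → ℤ) → ℝ}, Bd f → Bd g → Dp (Q ∅) g → Er S (Q {l}) (fun z => g z * f z) =
      Er S (Q ∅) fun z => g z * Fr S (Q {l} \ Q ∅) f z := fun hf hg dg =>
    er_split h (c.cl _) (c.cl _) (c.mono _) e1 disjoint_sdiff hf hg dg
  refine ⟨fun z => G z ∧ β ≤ sh z, fun z => R l z ∧ H (z ∘ τ l), dp_and a1 (f2.map (β ≤ ·)),
    fun z k => a2 z k.1, ?_, dp_and ((hR l lB).mono s2) (c.dp lB D (a4.mono s1)),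
    fun z k => hI l lB D DB hl z k.1 (a5 _ k.2), fun φ b1 b2 b3 => ?_⟩
  · have d3 : Dp (Q ∅) fun z => G z ∧ ¬ β ≤ sh z := dp_and a1 (f2.map fun x => ¬ β ≤ x)
    have k1 : Er S (Q ∅) (fun z => ind (G z ∧ ¬ β ≤ sh z)) ≤ ε := by
      refine le_of_not_ge fun k => (hb l lB _ d3 (fun z k => a2 z k.1) k).not_ge ?_
      refine (h.Er_le (bd_ind _) ((bd_ind fun z => G z ∧ ¬ β ≤ sh z).mul
        (bd_ind fun z => G (z ∘ τ l) ∧ R l z)) fun z _ => ?_).trans ?_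
      · rw [← ind_and]; exact ind_mono fun k => ⟨k.1, k.2.1.1, k.2.2⟩
      rw [sp (bd_ind _) (bd_ind _) (d3.map ind)]
      refine (h.Er_le ((bd_ind _).mul f3) (bd_const β) fun z _ => ?_).trans ?_
      · by_cases k : G z ∧ ¬ β ≤ sh z
        · rw [ind_pos k, one_mul]; exact (not_le.1 k.2).le
        · rw [ind_neg k, zero_mul]; exact hβ
      · rw [Er_const, mul_comm]; exact mul_le_mul_of_nonneg_right c.ms hβ
    have k2 := h.Er_le (q := Q ∅) (bd_ind G) ((bd_ind fun z => G z ∧ β ≤ sh z).add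
      (bd_ind fun z => G z ∧ ¬ β ≤ sh z)) fun z _ => by
        by_cases a : G z <;> by_cases b : β ≤ sh z <;> simp [ind, a, b]
    rw [h.Er_add (bd_ind _) (bd_ind _)] at k2
    rw [card_insert_of_notMem hl]
    push_cast
    linarith
  · set ψ : (ι → ℤ) → ℝ := fun z => ind (R l (z ∘ τ l)) * φ (z ∘ τ l) with hψ
    have g1 : Bd ψ := (bd_ind _).mul (Bd.comp b1 _)
    have g2 : Dp (Q {l}) ψ := dτ (f := fun z => ind (R l z) * φ z)
      (((hR l lB).map ind).map₂ (b3.mono (c.mono _)) (· * ·))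
    have ττ : ∀ z : ι → ℤ, (z ∘ τ l) ∘ τ l = z := fun z => funext fun i => congrArg z (c.inv l i)
    have k1 := a6 (Fr S (Q {l} \ Q ∅) ψ) (h.bd_Fr _ g1)
      (Fr_nonneg fun z => mul_nonneg (ind_nonneg _) (b2 _)) (dp_Fr (e1 ▸ c.cl {l}) (e1 ▸ g2))
    rw [← sp g1 (bd_ind _) (a1.map ind),
      ← er_split h (c.cl _) (c.cl _) s1 e2 d2 g1 (bd_ind _) (a4.map ind), ← c.er lB D,
      ← insert_empty_eq l, ← c.er lB ∅, insert_empty_eq] at k1
    simp only [hψ, ττ] at k1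
    have k2 : β * Er S (Q ∅) (fun z => ind (G z ∧ β ≤ sh z) * φ z) ≤
        Er S (Q {l}) fun z => ind (G (z ∘ τ l)) * (ind (R l z) * φ z) := by
      simp only [← mul_assoc, ← ind_and]
      simp only [mul_comm _ (φ _)]
      rw [sp (bd_ind _) b1 b3, ← Er_mul]
      refine h.Er_le ((bd_const β).mul (b1.mul (bd_ind _))) (b1.mul f3) fun z _ => ?_
      rw [mul_left_comm]
      refine mul_le_mul_of_nonneg_left ?_ (b2 z)
      by_cases k : G z ∧ β ≤ sh z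
      · rw [ind_pos k, mul_one]; exact k.2
      · rw [ind_neg k, mul_zero]; exact Fr_nonneg (fun _ => ind_nonneg _) _
    rw [card_insert_of_notMem hl, pow_succ, mul_assoc]
    refine ((mul_le_mul_of_nonneg_left k2 (pow_nonneg hβ _)).trans k1).trans (le_of_eq ?_)
    simp only [ind_and, mul_assoc, mul_left_comm]

end

end Vale.Agent.P057CN
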