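import Vale.Agent.P057CR.RectD

/-!
The vertices of a chain.
-/

set_option linter.all false

open Finset Vale.Agent.P057DP Vale.Agent.P057CR

namespace Vale.Agent.P057CN

variable {C W E : Type} [DecidableEq W] {cl : W → C} {b : C} {l l' : W} {D : Finset W}
  {x : E ⊕ W × (Fin 3 ⊕ W)}

/-- the vertices used by the leaves in `D` -/
def PD (cl : W → C) (b : C) (D : Finset W) : E ⊕ W × (Fin 3 ⊕ W) → Prop :=
  Sum.elim (fun _ => True) fun x => x.2.elim (fun i => i = 0 ∨ (i = 1 ∧ x.1 ∈ D))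
    fun l => cl x.1 = b ∧ l ∈ D ∧ x.1 ≠ l

/-- the exchange of the original vertex `l` and its root -/
def sw (l : W) : E ⊕ W × (Fin 3 ⊕ W) → E ⊕ W × (Fin 3 ⊕ W) :=
  Sum.map id fun x => (x.1, if x.1 = l then x.2.map (Equiv.swap 0 1) id else x.2)

/-- the point with the vertices in `D` replaced by their roots -/
def pd (D : Finset W) : E ⊕ W → E ⊕ W × (Fin 3 ⊕ W) :=
  Sum.map id fun v => (v, Sum.inl (if v ∈ D then 1 else 0))

/-- a rectangle inside the chain -/
def jl (l : W) (p : (E ⊕ W) × Bool) : E ⊕ W × (Fin 3 ⊕ W) :=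
  p.1.map id fun v => (v, if p.2 then if v = l then Sum.inl 1 else Sum.inr l else Sum.inl 0)

theorem pd_ins : PD cl b (insert l D) x ↔ PD cl b D x ∨ PD cl b {l} x := by
  rcases x with e | ⟨v, i | u⟩ <;> simp [PD] <;> tauto

theorem pd_cl (πE : E → W) (hD : ∀ v ∈ D, cl v = b) (h : PD cl b D x) :
    PD cl b ∅ x ∨ cl ((Oc πE).π x) = b := by
  rcases x with e | ⟨v, i | u⟩
  · exact Or.inl h
  · exact h.imp Or.inl fun k => hD v k.2
  · exact Or.inr h.1

theorem pd_mono {D' : Finset W} (hD : D ⊆ D') (h : PD cl b D x) : PD cl b D' x := by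
  rcases x with e | ⟨v, i | u⟩
  exacts [h, h.imp id fun k => ⟨k.1, hD k.2⟩, ⟨h.1, hD h.2.1, h.2.2⟩]

theorem pd_it (hl : l ∉ D) (h : PD cl b D x) (h' : PD cl b {l} x) : PD cl b ∅ x := by
  rcases x with e | ⟨v, i | u⟩
  · exact h
  · exact Or.inl (h.elim id fun k => h'.elim id fun k' => (hl (mem_singleton.1 k'.2 ▸ k.2)).elim)
  · exact (hl (mem_singleton.1 h'.2.1 ▸ h.2.1)).elim

theorem pd_sw (hl : l ∈ D) : PD cl b D (sw l x) ↔ PD cl b D x := by
  rcases x with e | ⟨v, i | u⟩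
  · rfl
  · by_cases e : v = l
    · fin_cases i <;> simp [PD, sw, e, hl, Equiv.swap_apply_def]
    · simp [sw, e]
  · by_cases e : v = l <;> simp [sw, e]

theorem pd_all [Fintype W] [DecidableEq C] :
    (PD cl b (univ.filter (cl · = b)) : E ⊕ W × (Fin 3 ⊕ W) → Prop) = Pc cl b := by
  funext x
  rcases x with e | ⟨v, i | u⟩ <;> simp [PD, Pc]

theorem pd_og : PD cl b ∅ x ↔ ∃ y, True ∧ og y = x := by
  rcases x with e | ⟨v, i | u⟩ <;> simp [PD, og, eq_comm]

theorem og_inj : (og : E ⊕ W → _).Injective :=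
  Function.Injective.sumMap Function.injective_id fun _ _ e => congrArg Prod.fst e

theorem sw_inv (l : W) : (sw l : E ⊕ W × (Fin 3 ⊕ W) → _).Involutive := by
  rintro (e | ⟨v, i | u⟩)
  · rfl
  all_goals by_cases e : v = l <;> simp [sw, e]

theorem h_sw (πE : E → W) (l : W) (x) : (Oc πE).π (sw l x) = (Oc πE).π x := by cases x <;> rfl

theorem j_sw (πE : E → W) (l : W) (x) : (Oc πE).jk (sw l x) = (Oc πE).jk x := by
  rcases x with e | ⟨v, i | u⟩
  · rfl
  · by_cases e : v = l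
    · fin_cases i <;> simp [Oc, sw, e, Equiv.swap_apply_def]
    · simp [sw, e]
  · by_cases e : v = l <;> simp [sw, e]

theorem s_sw (σE : E → ℝ) (ν : ℝ) (l : W) (x) : σc σE ν (sw l x) = σc σE ν x := by
  rcases x with e | ⟨v, i | u⟩
  · rfl
  · by_cases e : v = l
    · fin_cases i <;> simp [σc, sw, e, Equiv.swap_apply_def]
    · simp [sw, e]
  · by_cases e : v = l <;> simp [sw, e]

theorem h_pd (πE : E → W) (D : Finset W) (x) : (Oc πE).π (pd D x) = (px πE).π x := by
  cases x <;> rfl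

theorem h_lc (πE : E → W) (cl : W → C) (b : C) (l : W) (x) :
    (Oc πE).π ((sw l ∘ lw cl b l) x) = (px πE).π x := by cases x <;> rfl

theorem h_jl (πE : E → W) (l : W) (p) : (Oc πE).π (jl l p) = (px πE).dbl.π p := by
  rcases p with ⟨x | x, i⟩ <;> rfl

theorem pd_empty (y : E ⊕ W) : pd ∅ y = og y := by cases y <;> simp [pd, og]

theorem sw_pd (hl : l ∉ D) (y : E ⊕ W) : sw l (pd D y) = pd (insert l D) y := by
  rcases y with e | v
  · rfl
  · by_cases e : v = l <;> simp [sw, pd, e, hl]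

theorem sw_lw (hl : cl l = b) (h : l ≠ l') (y : E ⊕ W) : sw l (lw cl b l' y) = lw cl b l' y := by
  rcases y with e | v
  · rfl
  · by_cases e : v = l <;> simp [sw, lw, e, hl, h]

theorem sw_lc (hl : cl l = b) (h : l ≠ l') (y : E ⊕ W) :
    sw l ((sw l' ∘ lw cl b l') y) = (sw l' ∘ lw cl b l') y := by
  rcases y with e | v
  · rfl
  · by_cases e : v = l <;> simp [sw, lw, e, hl, h]

theorem jl_00 (y : E ⊕ W) : jl l (cn (DA l) (DB cl b l) false false y) = og y := by
  cases y <;> simp [jl, cn, og]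

theorem jl_10 (y : E ⊕ W) : jl l (cn (DA l) (DB cl b l) true false y) = pd {l} y := by
  rcases y with e | v
  · rfl
  · by_cases e : v = l <;> simp [jl, cn, pd, DA, e]

theorem jl_01 (y : E ⊕ W) : jl l (cn (DA l) (DB cl b l) false true y) = lw cl b l y := by
  rcases y with e | v
  · rfl
  · by_cases e : v = l <;> by_cases f : cl v = b <;> simp [jl, cn, lw, DA, DB, e, f]

theorem jl_11 (y : E ⊕ W) : jl l (cn (DA l) (DB cl b l) true true y) = (sw l ∘ lw cl b l) y := by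
  rcases y with e | v
  · rfl
  · by_cases e : v = l <;> by_cases f : cl v = b <;> simp [jl, cn, lw, sw, DA, DB, e, f]

theorem jl_inj : Set.InjOn (jl l : (E ⊕ W) × Bool → _)
    {p | P2 (fun _ => True) (fun v => DA l v ∨ DB cl b l v) p} := by
  rintro ⟨x | x, i⟩ h ⟨y | y, j⟩ h' e
  · obtain rfl : i = false := by simpa [P2, DA, DB] using h
    obtain rfl : j = false := by simpa [P2, DA, DB] using h'
    simpa [jl] using e
  · cases e
  · cases e
  · obtain ⟨rfl, e⟩ : x = y ∧ _ := by simpa only [jl, Sum.map_inr, Sum.inr.injEq, Prod.mk.injEq] using e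
    by_cases f : x = l <;> cases i <;> cases j <;> simp_all

theorem j_jl (πE : E → W) (p) : (Oc πE).jk (jl l p) = (px πE).dbl.jk p := by
  rcases p with ⟨x | x, i⟩
  · rfl
  · by_cases f : x = l <;> cases i <;> simp [jl, Oc, px, Ov.dbl, f]

theorem s_jl (σE : E → ℝ) (ν : ℝ) (p) :
    σc σE ν (jl l p) = ((Sum.elim σE fun _ => 1) ∘ Prod.fst) p := by
  rcases p with ⟨x | x, i⟩
  · rfl
  · by_cases f : x = l <;> cases i <;> simp [jl, σc, f]

theorem pd_jl : PD cl b {l} x ↔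
    ∃ p, P2 (fun _ => True) (fun v => DA l v ∨ DB cl b l v) p ∧ jl l p = x := by
  constructor
  · rcases x with e | ⟨v, i | u⟩
    · exact fun _ => ⟨(.inl e, false), ⟨trivial, Or.inl rfl⟩, rfl⟩
    · rintro (rfl | ⟨rfl, h⟩)
      · exact ⟨(.inr v, false), ⟨trivial, Or.inl rfl⟩, rfl⟩
      · obtain rfl := mem_singleton.1 h
        exact ⟨(.inr v, true), ⟨trivial, Or.inr (Or.inl rfl)⟩, by simp [jl]⟩
    · rintro ⟨h1, h2, h3⟩
      obtain rfl := mem_singleton.1 h2
      exact ⟨(.inr v, true), ⟨trivial, Or.inr (Or.inr ⟨v, rfl, h1, h3⟩)⟩,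
        by simp [jl, show v ≠ u from h3]⟩
  · rintro ⟨⟨e | v, i⟩, h, rfl⟩
    · trivial
    · by_cases f : v = l <;> cases i <;> simp_all [jl, PD, P2, DA, DB]

theorem p2_cn {X : Type} {A B : X → Prop} (i j : Bool) (y : X) :
    P2 (fun _ => True) (fun v => A v ∨ B v) (cn A B i j y) := by
  by_cases a : A y <;> by_cases b : B y <;> simp [P2, cn, a, b]

theorem pc_pd [Fintype W] [DecidableEq C] (y : E ⊕ W) :
    Pc cl b (pd (univ.filter (cl · = b)) y) ∧ ¬ Da cl b (pd (univ.filter (cl · = b)) y) := by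
  rcases y with e | v
  · exact ⟨trivial, id⟩
  · by_cases f : cl v = b <;> simp [Pc, Da, pd, f]

theorem pc_lc (hl : cl l = b) (y : E ⊕ W) :
    Pc cl b ((sw l ∘ lw cl b l) y) ∧ ¬ Da cl b ((sw l ∘ lw cl b l) y) := by
  rcases y with e | v
  · exact ⟨trivial, id⟩
  · by_cases e : v = l <;> by_cases f : cl v = b <;> simp_all [Pc, Da, sw, lw]

theorem pd_lw (y : E ⊕ W) : PD cl b {l} (lw cl b l y) :=
  pd_jl.2 ⟨_, p2_cn false true y, jl_01 y⟩

end Vale.Agent.P057CN
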