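import Vale.Agent.P057CN.Abs
import Vale.Agent.P057CN.Vx
import Vale.Agent.P057DP.Flp
import Vale.Agent.P057EN.Mb

/-!
Chains of rectangles: the forms are sums of forms that see one original vertex each.
-/

set_option linter.all false

open Matrix Finset Real
open Vale.Agent.P267.H775 Vale.Agent.P057G Vale.Agent.P057MA Vale.Agent.P057PC
open Vale.Agent.P057TP hiding ind
open Vale.Agent.P057GH Vale.Agent.P057DP Vale.Agent.P057CR
open Vale.Agent.P057T1 (ind ind_pos ind_neg ind_nonneg ind_le abs_ind ind_mono)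
open Vale.Agent.P057EN (fo_lt fo_sub fo_sum)

namespace Vale.Agent.P057CN

noncomputable section

variable {C W X₁ X₂ X₃ E κ : Type} {T : Tow} {cl : W → C} {m s : ℕ} {N : ℝ}
  [Fintype X₁] [DecidableEq X₁] [Fintype X₂] [DecidableEq X₂] [Fintype X₃] [DecidableEq X₃]
  {O₁ : Ov W X₁} {O₂ : Ov W X₂} {O₃ : Ov W X₃}

theorem lt_lt {g₁ : X₁ → X₂} {g₂ : X₂ → X₃} {g₃ : X₁ → X₃} (h₁ : ∀ x, O₂.π (g₁ x) = O₁.π x)
    (h₂ : ∀ x, O₃.π (g₂ x) = O₂.π x) (h₃ : ∀ x, O₃.π (g₃ x) = O₁.π x)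
    (e : ∀ x, g₂ (g₁ x) = g₃ x) {α : Type} (u : LT T cl m O₃ → α) :
    (u ∘ lt h₂ () : LT T cl m O₂ → α) ∘ lt h₁ () = u ∘ lt h₃ () :=
  funext fun l => congrArg u ((lf_lf _ _ _).trans
    (lf_congr (fun x _ => e x) (fun _ _ => rfl) fun u => u.elim))

theorem dp_b0 {g : X₁ → X₂} (h : ∀ x, O₂.π (g x) = O₁.π x) {P : X₂ → Prop} (hP : ∀ x, P (g x))
    {G : (LT T cl m O₁ → ℤ) → Prop} (hG : Dp (b0 T cl m O₁ Unit Empty fun _ => True) G) :
    Dp (b0 T cl m O₂ Unit Empty P) fun z => G (z ∘ lt h ()) :=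
  hG.comp fun l hl => lf_b0 (fun x _ => hP x) hl

theorem dp_all {ι α J : Type} {q : Finset ι} {A : J → (ι → α) → Prop} (h : ∀ j, Dp q (A j)) :
    Dp q fun z => ∀ j, A j z := fun z z' e => forall_congr fun j => h j z z' e

theorem dp_toR {ι : Type} {q : Finset ι} {A : (ι → ℝ) → Prop} (h : Dp q A) :
    Dp q fun z : ι → ℤ => A (toR z) := fun z z' e => h _ _ fun i hi => congrArg _ (e i hi)

theorem inv_iff {X : Type} {g : X → X} (hg : g.Involutive) {P : X → Prop} (hP : ∀ x, P (g x) ↔ P x)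
    (x : X) : P x ↔ ∃ y, P y ∧ g y = x :=
  ⟨fun h => ⟨g x, (hP x).2 h, hg x⟩, fun ⟨y, h, e⟩ => e ▸ (hP y).2 h⟩

variable [Fintype W] [DecidableEq W] [Fintype E] [DecidableEq E] [DecidableEq C]
  {Z : Sys T W Unit} {πE : E → W} {σE : E → ℝ} {b : C} {ν ω K β ε : ℝ}

theorem h_cn (O : Ov W X₁) (A B : X₁ → Prop) (i j : Bool) (x : X₁) :
    O.dbl.π (cn A B i j x) = O.π x := rfl

theorem al4_eq (A B : X₁ → Prop) (Θ : (LT T cl m O₁ → ℝ) → ℝ) (x : LT T cl m O₁.dbl → ℝ) :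
    al4 A B Θ x = Θ (x ∘ lt (h_cn O₁ A B false false) ()) - Θ (x ∘ lt (h_cn O₁ A B true false) ()) -
      Θ (x ∘ lt (h_cn O₁ A B false true) ()) + Θ (x ∘ lt (h_cn O₁ A B true true) ()) := rfl

theorem dp_al4 {A B : X₁ → Prop} {Θ : (LT T cl m O₁ → ℝ) → ℝ} (h : Fo cl m O₁ (fun _ => True) Θ) :
    Dp (b0 T cl m O₁.dbl Unit Empty (P2 (fun _ => True) fun v => A v ∨ B v) ∪
      st T cl m O₁.dbl (P2 (fun _ => True) fun v => A v ∨ B v)) (al4 A B Θ) := by
  have k := fun i j => dp_lt (h := h_cn O₁ A B i j) (fun x _ => p2_cn i j x) h.dp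
  exact fun z z' e => by
    have k' := fun i j => k i j z z' e
    simp only [al4_eq, k']

theorem ch_oc (hT : T.Ok s N) (hZ : Z.Ok) (hσ : ∀ x : E ⊕ W × (Fin 3 ⊕ W), 0 < σc σE ν x)
    (hm : (tst cl m Z (Oc πE) (σc σE ν) 1).mass (b0 T cl m (Oc πE) Unit Empty (PD cl b ∅)) ≤ 2) :
    Ch (tst cl m Z (Oc πE) (σc σE ν) 1) (univ.filter (cl · = b))
      (fun D => b0 T cl m (Oc πE) Unit Empty (PD cl b D)) fun l => lt (h_sw πE l) () where
  tr := (lo_tst hT hZ hσ one_pos).toTr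
  cl D := (dc_ms (cq_b0 _)).cl (lo_tst hT hZ hσ one_pos)
  ms := hm
  mono D := b0_mono fun _ => pd_mono (empty_subset _)
  un l hl D hD := by
    refine Subset.antisymm (fun i hi => ?_) (union_subset
      (b0_mono fun _ => pd_mono (subset_insert _ _)) (b0_mono fun _ => pd_mono (by simp)))
    obtain ⟨k, h⟩ := mem_b0.1 hi
    have hc := fun x a => pd_cl πE (D := insert l D)
      (fun v hv => (mem_filter.1 (insert_subset hl hD hv)).2) (h x a)
    rw [mem_union, mem_b0, mem_b0, ← and_or_left, or_iff_not_imp_left]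
    refine ⟨k, fun n x a => ?_⟩
    simp only [not_forall] at n
    obtain ⟨y, c, d⟩ := n
    refine (hc x a).elim (pd_mono (empty_subset _)) fun e => ?_
    have f := (hc y c).resolve_left fun f => d (pd_mono (empty_subset _) f)
    obtain rfl : x = y := Sum.inl_injective (i.2.2.1 a c (congrArg some (e.trans f.symm)))
    exact (pd_ins.1 (h x a)).resolve_left d
  it l D hl i hi := mem_b0.2 ⟨(mem_b0.1 (mem_inter.1 hi).1).1, fun x a =>
    pd_it hl ((mem_b0.1 (mem_inter.1 hi).1).2 x a) ((mem_b0.1 (mem_inter.1 hi).2).2 x a)⟩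
  inv l i := (lf_lf _ _ _).trans (lf_self (fun x _ => sw_inv l x) (fun _ _ => rfl) fun u => u.elim)
  emb l _ D := (emb_tst (h_sw πE l) (sw_inv l).injective (j_sw πE l) (fun x _ => s_sw σE ν l x)
    1).mono subset_union_left
  img l _ D := b0_image (sw_inv l).injective (fun _ _ _ => rfl)
    (inv_iff (sw_inv l) fun _ => pd_sw (mem_insert_self _ _))

/-- the form after the leaves in `D` -/
def FI (πE : E → W) (b : C) (Θ : (LT T cl m (px πE) → ℝ) → ℝ) (D : Finset W)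
    (u : LT T cl m (Oc πE) → ℝ) : ℝ :=
  Θ (u ∘ lt (h_og πE) ()) - Θ (u ∘ lt (h_pd πE D) ()) -
    ∑ l ∈ D, (Θ (u ∘ lt (h_lw πE cl b l) ()) - Θ (u ∘ lt (h_lc πE cl b l) ()))

theorem fi_empty {Θ : (LT T cl m (px πE) → ℝ) → ℝ} (u : LT T cl m (Oc πE) → ℝ) :
    FI πE b Θ ∅ u = 0 := by
  have e : u ∘ lt (h_pd πE ∅) () = u ∘ lt (h_og πE) () := funext fun l =>
    congrArg u (lf_congr (fun x _ => pd_empty x) (fun _ _ => rfl) fun u => Empty.elim u)
  rw [FI, e, sum_empty, sub_self, sub_self]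

theorem fi_ins {Θ : (LT T cl m (px πE) → ℝ) → ℝ} {l : W} {D : Finset W} (hb : cl l = b)
    (hl : l ∉ D) (u : LT T cl m (Oc πE) → ℝ) :
    al4 (DA l) (DB cl b l) Θ (u ∘ lt (h_jl πE l) ()) + FI πE b Θ D (u ∘ lt (h_sw πE l) ()) =
      FI πE b Θ (insert l D) u := by
  have e : ∀ l' ∈ D, l ≠ l' := fun l' a c => hl (c ▸ a)
  rw [al4_eq, FI, FI, sum_insert hl, lt_lt _ _ (h_og πE) jl_00, lt_lt _ _ (h_pd πE _) jl_10,
    lt_lt _ _ (h_lw πE cl b l) jl_01, lt_lt _ _ (h_lc πE cl b l) jl_11,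
    lt_lt _ _ (h_pd πE {l}) fun x => by rw [← pd_empty, sw_pd (notMem_empty _)]; rfl,
    lt_lt _ _ (h_pd πE _) (sw_pd hl), sum_congr rfl fun l' a => by
      rw [lt_lt _ _ (h_lw πE cl b l') (sw_lw hb (e l' a)),
        lt_lt _ _ (h_lc πE cl b l') (sw_lc hb (e l' a))]]
  ring

theorem chain0 (hT : T.Ok s N) (hZ : Z.Ok) (hσ : ∀ x : E ⊕ W × (Fin 3 ⊕ W), 0 < σc σE ν x)
    (hm : (tst cl m Z (Oc πE) (σc σE ν) 1).mass (b0 T cl m (Oc πE) Unit Empty (PD cl b ∅)) ≤ 2)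
    (hω : 0 < ω) (hK : 0 ≤ K) (hβ : 0 ≤ β) {Θ : κ → (LT T cl m (px πE) → ℝ) → ℝ}
    (hΘ : ∀ a, Fo cl m (px πE) (fun _ => True) (Θ a)) {U : (LT T cl m (px πE) → ℤ) → Prop}
    (hU : Dp (b0 T cl m (px πE) Unit Empty fun _ => True) U)
    (hb : ∀ l, cl l = b → ∀ G, Dp (b0 T cl m (px πE) Unit Empty fun _ => True) G →
      (∀ z, G z → U z) → ε ≤ dn cl m Z (px πE) (Sum.elim σE fun _ => 1) (fun _ => True) G →
      2 * β < dn cl m Z (px πE).dbl ((Sum.elim σE fun _ => 1) ∘ Prod.fst)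
        (P2 (fun _ => True) fun v => DA l v ∨ DB cl b l v) fun z =>
          (∀ i j, G (z ∘ lt (g := cn (DA l) (DB cl b l) i j) (fun _ => rfl) ())) ∧
          ∀ a, NR cl m Z (px πE).dbl ω (P2 (fun _ => True) fun v => DA l v ∨ DB cl b l v)
            (al4 (DA l) (DB cl b l) (Θ a)) K (toR z)) :
    β ^ (univ.filter (cl · = b)).card * (dn cl m Z (px πE) (Sum.elim σE fun _ => 1)
        (fun _ => True) U - (univ.filter (cl · = b)).card * ε) ≤
      dn cl m Z (Oc πE) (σc σE ν) (Pc cl b) fun z =>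
        U (z ∘ lt (h_og πE) ()) ∧ (∀ l, cl l = b → U (z ∘ lt (h_lw πE cl b l) ())) ∧
        ∀ a, NR cl m Z (Oc πE) ω (Pc cl b) (FI πE b (Θ a) (univ.filter (cl · = b)))
          ((univ.filter (cl · = b)).card * K) (toR z) := by
  set Bs := univ.filter (cl · = b) with hBs
  have eo := dn_emb (Z := Z) (cl := cl) (m := m) (h_og πE) og_inj (by rintro (x | x) <;> rfl)
    (σ₁ := Sum.elim σE fun _ => 1) (σ₂ := σc σE ν) (by rintro (x | x) - <;> rfl)
    fun x => pd_og (cl := cl) (b := b) (x := x)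
  have dj := fun l a => dp_lt (h := h_jl πE l) (fun p hp => pd_jl.2 ⟨p, hp, rfl⟩)
    (dp_al4 (A := DA l) (B := DB cl b l) (hΘ a))
  have key := (ch_oc (b := b) hT hZ hσ hm).chain (β := β) (ε := ε)
    (U := fun z => U (z ∘ lt (h_og πE) ()))
    (R := fun l z => U (z ∘ lt (h_lw πE cl b l) ()) ∧ ∀ a, NR cl m Z (Oc πE) ω (PD cl b {l})
      (fun u => al4 (DA l) (DB cl b l) (Θ a) (u ∘ lt (h_jl πE l) ())) K (toR z))
    (I := fun D z => (∀ l ∈ D, U (z ∘ lt (h_lw πE cl b l) ())) ∧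
      ∀ a, NR cl m Z (Oc πE) ω (PD cl b Bs) (FI πE b (Θ a) D) (D.card * K) (toR z)) hβ
    (dp_b0 _ (fun x => pd_og.2 ⟨x, trivial, rfl⟩) hU)
    (fun l _ => dp_and (dp_b0 _ pd_lw hU) (dp_all fun a => dp_toR (NR.dp hT hZ (dj l a))))
    (fun z => ⟨by simp, fun a => (nl_zero (by simp)).congr fun x => (fi_empty _).symm⟩)
    (fun l hl D hD hn z h1 h2 => ?_) fun l hl G h1 h2 h3 => ?_
  · rw [← eo U, ← pd_all]
    refine key.trans (dn_mono hT hZ hσ fun z k => ⟨k.1, fun l a => k.2.1 l ?_, k.2.2⟩)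
    exact mem_filter.2 ⟨mem_univ _, a⟩
  · have hc := (mem_filter.1 hl).2
    refine ⟨fun l' a => (mem_insert.1 a).elim (· ▸ h1.1) fun a => ?_, fun a => ?_⟩
    · simpa only [lt_lt _ _ (h_lw πE cl b l') (sw_lw hc fun c => hn (c ▸ a))] using h2.1 l' a
    · have k := ((h1.2 a).up hT hZ hω hK (fun _ => pd_mono (singleton_subset_iff.2 hl))
        (dj l a)).add ((nr_emb (h_sw πE l) (sw_inv l).injective (j_sw πE l)
          (inv_iff (sw_inv l) fun _ => pd_sw hl)).2 (h2.2 a))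
      rw [card_insert_of_notMem hn, Nat.cast_succ, add_one_mul, add_comm]
      exact k.congr fun x => fi_ins hc hn _
  · let j : LT T cl m (px πE) → LT T cl m (Oc πE) := lt (h_og πE) ()
    have hj : j.Injective := lf_inj og_inj (fun _ _ _ => rfl) fun u : Empty => u.elim
    have hq : (b0 T cl m (px πE) Unit Empty fun _ => True).image j = _ :=
      b0_image og_inj (fun _ _ _ => rfl) fun x => pd_og (cl := cl) (b := b) (x := x)
    have e1 : ∀ z, G (Function.extend j (z ∘ j) 0) = G z := fun z => h1 _ _ fun i hi => by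
      obtain ⟨i, -, rfl⟩ := mem_image.1 (hq ▸ hi)
      exact hj.extend_apply _ _ _
    have d1 : Dp (b0 T cl m (px πE) Unit Empty fun _ => True) fun w =>
        G (Function.extend j w 0) := fun w w' e => h1 _ _ fun i hi => by
      obtain ⟨i, a, rfl⟩ := mem_image.1 (hq ▸ hi)
      rw [hj.extend_apply, hj.extend_apply, e i a]
    have u1 : ∀ w, G (Function.extend j w 0) → U w := fun w a => by
      simpa only [j, Function.extend_comp hj] using h2 _ a
    refine (hb l (mem_filter.1 hl).2 _ d1 u1 (by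
      rw [← eo]; simpa only [dn, j, e1] using h3)).trans_le ?_
    refine (dn_emb' (h_jl πE l) jl_inj (fun x _ => j_jl πE x) (fun x _ => s_jl σE ν x)
      (fun x => pd_jl) (dp_and (dp_all fun i => dp_all fun k => dp_b0 (h_cn _ _ _ i k) (p2_cn i k)
        d1) (dp_all fun a => dp_toR (NR.dp hT hZ (dp_al4 (hΘ a)))))).ge.trans
      (dn_mono hT hZ hσ fun z k => ?_)
    have k1 : ∀ i i', G (Function.extend j ((z ∘ lt (h_jl πE l) () : LT T cl m (px πE).dbl → ℤ) ∘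
      lt (h_cn _ (DA l) (DB cl b l) i i') ()) 0) := k.1
    refine ⟨?_, ?_, u1 _ ?_, fun a => (nr_emb' hT hZ (h_jl πE l) jl_inj
      (fun x _ => j_jl πE x) (fun x => pd_jl) (dp_al4 (hΘ a))).2 (k.2 a)⟩
    · simpa only [lt_lt _ _ (h_og πE) jl_00, j, e1] using k1 false false
    · rw [← e1, lt_lt _ _ (h_pd πE {l}) fun x => by rw [← pd_empty, sw_pd (notMem_empty _)]; rfl]
      simpa only [lt_lt _ _ (h_pd πE _) jl_10] using k1 true false
    · simpa only [lt_lt _ _ (h_lw πE cl b l) jl_01] using k1 false true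

theorem sb_exp {X : Type} {σ : X → ℝ} {A : ℝ} {c : ℕ} (hc : s + 4 ≤ c) (hA : (c : ℝ) ≤ A)
    (h : ∀ x, 1 ≤ σ x ∧ σ x ≤ exp A) : Sb s (exp (A ^ c / 2)) σ := fun x => by
  have h1 : (s : ℝ) + 4 ≤ A := le_trans (by exact_mod_cast hc) hA
  have h0 : (0 : ℝ) ≤ s := Nat.cast_nonneg s
  have h2 : A ^ 4 ≤ A ^ c := pow_le_pow_right₀ (by linarith) (by omega)
  have h3 : 16 ≤ A ^ 2 := by nlinarith
  refine ⟨(h x).1, (mul_le_mul (show (4 : ℝ) ≤ exp 3 by linarith [add_one_le_exp (3 : ℝ)])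
    (pow_le_pow_left₀ (zero_le_one.trans (h x).1) (h x).2 s) (pow_nonneg (zero_le_one.trans
      (h x).1) _) (exp_pos _).le).trans ?_⟩
  rw [← exp_nat_mul, ← exp_add, exp_le_exp]
  nlinarith

theorem chn (s : ℕ) (hR : RECT s) : CHN s := by
  obtain ⟨c, hc, hR⟩ := hR
  have c1 : s + 4 ≤ (s + 4) * c := Nat.le_mul_of_pos_right _ hc
  refine ⟨(s + 4) * c, by omega, ?_⟩
  intro T N C W E κ _ _ _ _ _ _ _ Z cl m πE σE b y A ω ν x U h hE hκ hσ h1 h2 h3 h4 hx hU hP hd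
  have y4 : (4 : ℝ) ≤ y := le_trans (by exact_mod_cast (by omega : 4 ≤ (s + 4) * c)) h.cy
  have yA := h.yA
  have yy : y ≤ y ^ 2 := by nlinarith
  have A1 : A ^ 2 ≤ A ^ (s + 4) := pow_le_pow_right₀ (by linarith) (by omega)
  have A2 : exp A ≤ exp (A ^ (s + 4)) := exp_le_exp.2 (by nlinarith)
  have A3 : A ^ 4 ≤ A ^ ((s + 4) * c) := pow_le_pow_right₀ (by linarith) (by omega)
  have hW := h.cW
  have h' : En s N c m Z (y ^ 2) (A ^ (s + 4)) :=
    ⟨h.ok, h.zok, le_trans (by exact_mod_cast Nat.le_mul_of_pos_left _ (by omega)) (h.cy.trans yy),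
      by nlinarith, fun e => (h.dm e).trans (exp_le_exp.2 yy), hW.trans yy, by
        simpa only [← pow_mul] using h.lf⟩
  have hs : Sb s (exp (A ^ ((s + 4) * c) / 2)) (σc σE ν : E ⊕ W × (Fin 3 ⊕ W) → ℝ) := by
    refine sb_exp c1 (h.cy.trans yA) ?_
    have := one_le_exp (show 0 ≤ A by linarith)
    rintro (e | ⟨v, i | u⟩)
    · exact hσ e
    · simp only [σc, Sum.elim_inr, Sum.elim_inl]; split_ifs; exacts [⟨h3, h4⟩, ⟨le_rfl, this⟩]
    · exact ⟨le_rfl, this⟩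
  have he := h.env (by omega)
  have hm := (he.lf_tst (cl := cl) (O := Oc πE) (Nat.le_floor (by
    simp only [Fintype.card_sum, Fintype.card_prod, Fintype.card_fin]
    push_cast
    have := Nat.cast_nonneg (α := ℝ) (Fintype.card W)
    have : A ^ 2 * 16 ≤ A ^ 4 := by
      rw [show A ^ 4 = A ^ 2 * A ^ 2 by ring]
      exact mul_le_mul_of_nonneg_left (by nlinarith) (sq_nonneg A)
    nlinarith)) hs one_pos (by linarith [he.L4])).le he.η1 (dc_ms (cq_b0 (PD cl b ∅)))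
  have hΘ := fun a => fo_lt (O₁ := Ov.one W) (O₂ := px πE) (g := Sum.inr) (fun _ => rfl)
    (P₂ := fun _ => True) (fun _ _ => trivial) (hx.fo a)
  set u := (y ^ 2) ^ c with hu
  have u1 : y ^ 2 ≤ u := le_self_pow₀ (by nlinarith) (by omega)
  have u2 : u ^ 2 ≤ y ^ ((s + 4) * c) := by
    rw [hu, ← pow_mul, ← pow_mul]; exact pow_le_pow_right₀ (by linarith) (by nlinarith)
  have key := chain0 (b := b) (β := exp (-(u + 1))) (ε := exp (-y ^ 2)) h.ok h.zok hs.pos hm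
    (one_pos.trans_le h1) (exp_pos u).le (exp_pos _).le hΘ hU fun l hl G g1 g2 g3 =>
      lt_of_lt_of_le (by
        rw [neg_add, exp_add, mul_left_comm, Real.exp_neg 1, ← hu, mul_lt_iff_lt_one_right (exp_pos _),
          ← div_eq_mul_inv, div_lt_one (exp_pos _)]
        linarith [add_one_lt_exp one_ne_zero])
      (hR T N C W E κ Z cl m πE σE b _ _ ω x G l hl h' (hE.trans yy) (hκ.trans yy)
        (fun e => ⟨(hσ e).1, (hσ e).2.trans A2⟩) h1 (h2.trans A2)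
        ⟨hx.kp, hx.c0, fun F o => ⟨(hx.bd F o).1, (hx.bd F o).2.trans
          (mul_le_mul_of_nonneg_right (exp_le_exp.2 yy) (by linarith))⟩, hx.ce, hx.g1, hx.fo⟩ g1
        (fun z a w e => (exp_le_exp.2 (neg_le_neg yy)).trans (hP z (g2 z a) w e)) g3)
  set Bs := univ.filter (cl · = b) with hBs
  have b1 : (Bs.card : ℝ) ≤ y := le_trans (by exact_mod_cast card_le_univ _) hW
  have b2 : (y + 1) * exp (-y ^ 2) ≤ exp (-y) := by
    rw [show -y = y + -(2 * y) by ring, exp_add]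
    exact mul_le_mul (add_one_le_exp y) (exp_le_exp.2 (by nlinarith)) (exp_pos _).le (exp_pos _).le
  refine ⟨fun a w => x.θ a (w ∘ lt (h_pd πE Bs) () ∘ ri πE) -
    ∑ l ∈ Bs, x.θ a (w ∘ lt (h_lc πE cl b l) () ∘ ri πE), fun a => fo_sub
      (fo_lt (h_pd πE Bs) (fun v _ => pc_pd v) (hΘ a)) (fo_sum _ fun l hl =>
        fo_lt (h_lc πE cl b l) (fun v _ => pc_lc (mem_filter.1 hl).2 v) (hΘ a)), ?_⟩
  refine le_trans ?_ (key.trans (dn_mono h.ok h.zok hs.pos fun z k => ⟨k.1, k.2.1, fun a =>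
    ((k.2.2 a).mono ?_).congr fun w => ?_⟩))
  · refine le_trans ?_ (mul_le_mul_of_nonneg_left (show exp (-y ^ 2) ≤ _ by
      nlinarith [exp_pos (-y ^ 2)]) (pow_nonneg (exp_pos _).le _))
    rw [← exp_nat_mul, ← exp_add, exp_le_exp]
    nlinarith
  · refine (mul_le_mul_of_nonneg_right (b1.trans (by linarith [add_one_le_exp y] : y ≤ exp y))
      (exp_pos _).le).trans ?_
    rw [← exp_add, exp_le_exp]
    nlinarith
  · simp only [FI, sum_sub_distrib, Function.comp_assoc]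
    ring

end

end Vale.Agent.P057CN
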